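import Vale.Agent.Lib.P226.Propeller

/-!
P226, Q1 (propeller conjecture), stated without any auxiliary definition: `γ_d` is the product of
`d` copies of the standard normal law `N(0,1)` on `ℝ`, and `|∫_A x dγ_d|²` is written as the sum
over the coordinates `j` of `(∫_A x_j dγ_d)²`.
-/

open MeasureTheory ProbabilityTheory

namespace Vale.Agent.Results.P226.AlmostEverywhere

private theorem moment_eq {d : ℕ} (A : Set (Fin d → ℝ)) :
    ‖∫ x in (WithLp.ofLp ⁻¹' A : Set (EuclideanSpace ℝ (Fin d))), x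
        ∂(stdGaussian (EuclideanSpace ℝ (Fin d)))‖ ^ 2 =
      ∑ j, (∫ x in A, x j ∂(Measure.pi fun _ : Fin d => gaussianReal 0 1)) ^ 2 := by
  have hint : Integrable (fun x : EuclideanSpace ℝ (Fin d) => x)
      ((stdGaussian (EuclideanSpace ℝ (Fin d))).restrict
        (WithLp.ofLp ⁻¹' A : Set (EuclideanSpace ℝ (Fin d)))) :=
    (IsGaussian.integrable_id (μ := stdGaussian (EuclideanSpace ℝ (Fin d)))).integrableOn
  rw [EuclideanSpace.norm_sq_eq]
  refine Finset.sum_congr rfl fun j _ => ?_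
  have h1 : (∫ x in (WithLp.ofLp ⁻¹' A : Set (EuclideanSpace ℝ (Fin d))), x
        ∂(stdGaussian (EuclideanSpace ℝ (Fin d)))) j =
      ∫ x in (WithLp.ofLp ⁻¹' A : Set (EuclideanSpace ℝ (Fin d))), x j
        ∂(stdGaussian (EuclideanSpace ℝ (Fin d))) :=
    ((EuclideanSpace.proj (𝕜 := ℝ) (ι := Fin d) j).integral_comp_comm hint).symm
  rw [h1, Real.norm_eq_abs, sq_abs, ← map_pi_eq_stdGaussian]
  have h3 := (MeasurableEquiv.toLp 2 (Fin d → ℝ)).measurableEmbedding.setIntegral_map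
    (μ := Measure.pi fun _ : Fin d => gaussianReal 0 1)
    (fun x : EuclideanSpace ℝ (Fin d) => x j) (WithLp.ofLp ⁻¹' A)
  congr 1

private theorem null_eq {d : ℕ} {N : Set (Fin d → ℝ)} (hN : MeasurableSet N)
    (h : (Measure.pi fun _ : Fin d => gaussianReal 0 1) N = 0) :
    (stdGaussian (EuclideanSpace ℝ (Fin d)))
      (WithLp.ofLp ⁻¹' N : Set (EuclideanSpace ℝ (Fin d))) = 0 := by
  rw [← map_pi_eq_stdGaussian, Measure.map_apply (by fun_prop)
    ((WithLp.measurable_ofLp 2 (Fin d → ℝ)) hN)]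
  exact h

/-- For all `d`, `k` and all measurable `A_1, …, A_k ⊆ ℝ^d` such that `γ_d`-almost every point lies
in exactly one of them, `∑_i |∫_{A_i} x dγ_d|² ≤ 9/(8π)`; and for `d ≥ 2`, `k ≥ 3` the supremum
`M(d,k)` of the left-hand side over all such families is `9/(8π)`. -/
theorem result :
    (∀ (d k : ℕ) (A : Fin k → Set (Fin d → ℝ)), (∀ i, MeasurableSet (A i)) →
      (∀ᵐ x ∂(Measure.pi fun _ : Fin d => gaussianReal 0 1), ∃! i, x ∈ A i) →
      ∑ i, ∑ j, (∫ x in A i, x j ∂(Measure.pi fun _ : Fin d => gaussianReal 0 1)) ^ 2 ≤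
        9 / (8 * Real.pi)) ∧
    (∀ d k : ℕ, 2 ≤ d → 3 ≤ k →
      sSup {t : ℝ | ∃ A : Fin k → Set (Fin d → ℝ), (∀ i, MeasurableSet (A i)) ∧
        (∀ᵐ x ∂(Measure.pi fun _ : Fin d => gaussianReal 0 1), ∃! i, x ∈ A i) ∧
        t = ∑ i, ∑ j, (∫ x in A i, x j ∂(Measure.pi fun _ : Fin d => gaussianReal 0 1)) ^ 2} =
      9 / (8 * Real.pi)) := by
  have hup : ∀ (d k : ℕ) (A : Fin k → Set (Fin d → ℝ)), (∀ i, MeasurableSet (A i)) →
      (∀ᵐ x ∂(Measure.pi fun _ : Fin d => gaussianReal 0 1), ∃! i, x ∈ A i) →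
      ∑ i, ∑ j, (∫ x in A i, x j ∂(Measure.pi fun _ : Fin d => gaussianReal 0 1)) ^ 2 ≤
        9 / (8 * Real.pi) := by
    intro d k A hA hex
    have h := Vale.Agent.P226.main_partition_ae
      (fun i => (WithLp.ofLp ⁻¹' A i : Set (EuclideanSpace ℝ (Fin d))))
      (fun i => ((WithLp.measurable_ofLp 2 (Fin d → ℝ)) (hA i)).nullMeasurableSet)
      (fun i j hij => by
        have h1 : (Measure.pi fun _ : Fin d => gaussianReal 0 1) (A i ∩ A j) = 0 := by
          rw [ae_iff] at hex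
          refine measure_mono_null (fun x hx => ?_) hex
          rintro ⟨l, _, hl⟩
          exact hij ((hl i hx.1).trans (hl j hx.2).symm)
        exact null_eq ((hA i).inter (hA j)) h1)
      (by
        have h1 : (Measure.pi fun _ : Fin d => gaussianReal 0 1) (⋃ i, A i)ᶜ = 0 := by
          rw [ae_iff] at hex
          refine measure_mono_null (fun x hx => ?_) hex
          rintro ⟨l, hl, _⟩
          exact hx (Set.mem_iUnion.2 ⟨l, hl⟩)
        have h2 := null_eq (MeasurableSet.iUnion hA).compl h1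
        rw [Set.preimage_compl, Set.preimage_iUnion] at h2
        exact h2)
    simp only [moment_eq] at h
    exact h
  refine ⟨hup, fun d k hd hk => ?_⟩
  obtain ⟨B, hm, hdis, hcov, hF⟩ := Vale.Agent.P226.propeller_lower hk
      (EuclideanSpace.single (⟨0, by omega⟩ : Fin d) (1 : ℝ))
      (EuclideanSpace.single (⟨1, by omega⟩ : Fin d) (1 : ℝ)) (by simp) (by simp)
      (by simp [EuclideanSpace.inner_single_left])
  have hB : ∀ i, (WithLp.ofLp ⁻¹' (WithLp.toLp 2 ⁻¹' B i : Set (Fin d → ℝ)) :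
      Set (EuclideanSpace ℝ (Fin d))) = B i := fun i => by
    ext x
    rfl
  have hex : ∀ x : Fin d → ℝ, ∃! i, x ∈ (WithLp.toLp 2 ⁻¹' B i : Set (Fin d → ℝ)) := by
    intro x
    have hx : (WithLp.toLp 2 x : EuclideanSpace ℝ (Fin d)) ∈ ⋃ i, B i := by
      rw [hcov]
      exact Set.mem_univ _
    obtain ⟨i, hi⟩ := Set.mem_iUnion.1 hx
    refine ⟨i, hi, fun j hj => ?_⟩
    by_contra hij
    exact Set.disjoint_left.1 (hdis j i hij) hj hi
  have hle : 9 / (8 * Real.pi) ≤ ∑ i, ∑ j, (∫ x in (WithLp.toLp 2 ⁻¹' B i : Set (Fin d → ℝ)), x j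
      ∂(Measure.pi fun _ : Fin d => gaussianReal 0 1)) ^ 2 := by
    have h1 : ∀ i, ∑ j, (∫ x in (WithLp.toLp 2 ⁻¹' B i : Set (Fin d → ℝ)), x j
        ∂(Measure.pi fun _ : Fin d => gaussianReal 0 1)) ^ 2 =
        ‖∫ x in B i, x ∂(stdGaussian (EuclideanSpace ℝ (Fin d)))‖ ^ 2 := by
      intro i
      rw [← moment_eq, hB]
    simp only [h1]
    exact hF
  have hmeas : ∀ i, MeasurableSet (WithLp.toLp 2 ⁻¹' B i : Set (Fin d → ℝ)) := fun i =>
    (WithLp.measurable_toLp 2 (Fin d → ℝ)) (hm i)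
  refine le_antisymm (csSup_le ⟨_, _, hmeas, Filter.Eventually.of_forall hex, rfl⟩ ?_) ?_
  · rintro t ⟨A, hA, hA', rfl⟩
    exact hup d k A hA hA'
  · refine hle.trans (le_csSup ⟨9 / (8 * Real.pi), ?_⟩
      ⟨_, hmeas, Filter.Eventually.of_forall hex, rfl⟩)
    rintro t ⟨A, hA, hA', rfl⟩
    exact hup d k A hA hA'

end Vale.Agent.Results.P226.AlmostEverywhere
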