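import Vale.Agent.Lib.P226.Propeller

/-!
P226, Q1 (the Gaussian propeller conjecture of Khot and Naor), stated without any auxiliary
definition and without any Gaussian measure: the first moment `z(A) = ∫_A x dγ_d(x)` is written as
the Lebesgue integral `∫_A (2π)^(-d/2) exp(-|x|²/2) x dx` of a vector of `ℝ^d`.
-/

open MeasureTheory ProbabilityTheory

namespace Vale.Agent.Results.P226.LebesgueDensity

/-- the Gaussian first moment of a set as a Lebesgue integral -/
private theorem moment_eq {d : ℕ} (A : Set (EuclideanSpace ℝ (Fin d))) :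
    ∫ x in A, x ∂(stdGaussian (EuclideanSpace ℝ (Fin d))) =
      ∫ x in A, ((2 * Real.pi) ^ (-(d : ℝ) / 2) * Real.exp (-‖x‖ ^ 2 / 2)) • x := by
  rw [Vale.Agent.P226.stdGaussian_eq_withDensity, restrict_withDensity',
    integral_withDensity_eq_integral_toReal_smul
      (by exact (Vale.Agent.P226.continuous_dens
        (E := EuclideanSpace ℝ (Fin d))).measurable.ennreal_ofReal)
      (ae_of_all _ fun _ => ENNReal.ofReal_lt_top)]
  refine integral_congr_ae (ae_of_all _ fun x => ?_)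
  change (ENNReal.ofReal (Vale.Agent.P226.dens (EuclideanSpace ℝ (Fin d)) x)).toReal • x = _
  rw [ENNReal.toReal_ofReal (Vale.Agent.P226.dens_pos x).le]
  unfold Vale.Agent.P226.dens
  have h1 : (2 * Real.pi) ^ (-(d : ℝ) / 2) = ((2 * Real.pi) ^ ((d : ℝ) / 2))⁻¹ := by
    rw [neg_div, Real.rpow_neg (by positivity)]
  rw [finrank_euclideanSpace_fin]
  change _ = ((2 * Real.pi) ^ (-(d : ℝ) / 2) * Real.exp (-‖x‖ ^ 2 / 2)) • x
  rw [h1]

private theorem ac {d : ℕ} : stdGaussian (EuclideanSpace ℝ (Fin d)) ≪ volume := by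
  rw [Vale.Agent.P226.stdGaussian_eq_withDensity]
  exact withDensity_absolutelyContinuous _ _

/-- First part: for all `d`, `k`, every partition of `ℝ^d` into `k` Lebesgue measurable cells (cells
may be empty, the partition is taken up to null sets) satisfies `∑_i |z(A_i)|² ≤ 9/(8π)`.
Second part: for all `d ≥ 2` and `k ≥ 3` the value `9/(8π)` is attained by a partition of `ℝ^d` into
`k` measurable sets, so `M(d,k) = 9/(8π)`. -/
theorem result :
    (∀ (d k : ℕ) (A : Fin k → Set (EuclideanSpace ℝ (Fin d))),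
      (∀ i, NullMeasurableSet (A i) volume) →
      (∀ i j, i ≠ j → volume (A i ∩ A j) = 0) →
      volume (⋃ i, A i)ᶜ = 0 →
      ∑ i, ‖∫ x in A i, ((2 * Real.pi) ^ (-(d : ℝ) / 2) * Real.exp (-‖x‖ ^ 2 / 2)) • x‖ ^ 2 ≤
        9 / (8 * Real.pi)) ∧
    (∀ d k : ℕ, 2 ≤ d → 3 ≤ k → ∃ A : Fin k → Set (EuclideanSpace ℝ (Fin d)),
      (∀ i, MeasurableSet (A i)) ∧
      (∀ i j, i ≠ j → Disjoint (A i) (A j)) ∧
      (⋃ i, A i) = Set.univ ∧
      ∑ i, ‖∫ x in A i, ((2 * Real.pi) ^ (-(d : ℝ) / 2) * Real.exp (-‖x‖ ^ 2 / 2)) • x‖ ^ 2 =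
        9 / (8 * Real.pi)) := by
  have hup : ∀ (d k : ℕ) (A : Fin k → Set (EuclideanSpace ℝ (Fin d))),
      (∀ i, NullMeasurableSet (A i) volume) →
      (∀ i j, i ≠ j → volume (A i ∩ A j) = 0) →
      volume (⋃ i, A i)ᶜ = 0 →
      ∑ i, ‖∫ x in A i, ((2 * Real.pi) ^ (-(d : ℝ) / 2) * Real.exp (-‖x‖ ^ 2 / 2)) • x‖ ^ 2 ≤
        9 / (8 * Real.pi) := by
    intro d k A hA hdis hcov
    have h := Vale.Agent.P226.main_partition_ae A (fun i => (hA i).mono_ac ac)
      (fun i j hij => ac (hdis i j hij)) (ac hcov)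
    simp only [moment_eq] at h
    exact h
  refine ⟨hup, fun d k hd hk => ?_⟩
  obtain ⟨A, hm, hdis, hcov, hF⟩ := Vale.Agent.P226.propeller_lower hk
      (EuclideanSpace.single (⟨0, by omega⟩ : Fin d) (1 : ℝ))
      (EuclideanSpace.single (⟨1, by omega⟩ : Fin d) (1 : ℝ)) (by simp) (by simp)
      (by simp [EuclideanSpace.inner_single_left])
  simp only [moment_eq] at hF
  refine ⟨A, hm, hdis, hcov, le_antisymm (hup d k A (fun i => (hm i).nullMeasurableSet)
    (fun i j hij => ?_) ?_) hF⟩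
  · rw [(hdis i j hij).inter_eq, measure_empty]
  · rw [hcov, Set.compl_univ, measure_empty]

end Vale.Agent.Results.P226.LebesgueDensity
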