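import Vale.Agent.Lib.P226.Propeller

/-!
P226, Q1: the Gaussian propeller conjecture of Khot and Naor, in full.
For all `d` and `k`, every measurable partition of `ℝ^d` into `k` cells (up to null sets) has
`∑ |∫_{A i} x dγ_d|² ≤ 9/(8π)`, and for `d ≥ 2`, `k ≥ 3` the maximum `M(d,k)` equals `9/(8π)`.
-/

open MeasureTheory ProbabilityTheory

namespace Vale.Agent.Results.P226.Propeller

/-- The standard Gaussian measure `γ_d` of `ℝ^d`: density `(2π)^{-d/2} exp(-|x|²/2)` with respect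
to Lebesgue measure. -/
noncomputable def gauss (d : ℕ) : Measure (EuclideanSpace ℝ (Fin d)) :=
  volume.withDensity fun x =>
    ENNReal.ofReal ((2 * Real.pi) ^ (-(d : ℝ) / 2) * Real.exp (-‖x‖ ^ 2 / 2))

/-- `A` is a measurable partition of `ℝ^d` into `k` cells, up to `γ_d`-null sets; cells may be
empty. -/
structure IsPartition {d k : ℕ} (A : Fin k → Set (EuclideanSpace ℝ (Fin d))) : Prop where
  measurable : ∀ i, NullMeasurableSet (A i) (gauss d)
  disjoint : ∀ i j, i ≠ j → gauss d (A i ∩ A j) = 0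
  cover : gauss d (⋃ i, A i)ᶜ = 0

/-- `F(A) = ∑ |z(A i)|²` with `z(A) = ∫_A x dγ_d`. -/
noncomputable def F {d k : ℕ} (A : Fin k → Set (EuclideanSpace ℝ (Fin d))) : ℝ :=
  ∑ i, ‖∫ x in A i, x ∂(gauss d)‖ ^ 2

theorem gauss_eq (d : ℕ) : gauss d = stdGaussian (EuclideanSpace ℝ (Fin d)) := by
  rw [Vale.Agent.P226.stdGaussian_eq_withDensity, gauss]
  congr 1
  funext x
  unfold Vale.Agent.P226.dens
  congr 2
  rw [finrank_euclideanSpace_fin, neg_div, Real.rpow_neg (by positivity)]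

theorem result :
    (∀ (d k : ℕ) (A : Fin k → Set (EuclideanSpace ℝ (Fin d))), IsPartition A →
      F A ≤ 9 / (8 * Real.pi)) ∧
    (∀ d k : ℕ, 2 ≤ d → 3 ≤ k →
      IsGreatest {t : ℝ | ∃ A : Fin k → Set (EuclideanSpace ℝ (Fin d)), IsPartition A ∧ F A = t}
        (9 / (8 * Real.pi))) := by
  have hup : ∀ (d k : ℕ) (A : Fin k → Set (EuclideanSpace ℝ (Fin d))), IsPartition A →
      F A ≤ 9 / (8 * Real.pi) := by
    intro d k A hA
    obtain ⟨h1, h2, h3⟩ := hA
    unfold F
    rw [gauss_eq] at h1 h2 h3 ⊢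
    exact Vale.Agent.P226.main_partition_ae A h1 h2 h3
  refine ⟨hup, fun d k hd hk => ⟨?_, ?_⟩⟩
  · obtain ⟨A, hm, hdis, hcov, hF⟩ := Vale.Agent.P226.propeller_lower hk
      (EuclideanSpace.single (⟨0, by omega⟩ : Fin d) (1 : ℝ))
      (EuclideanSpace.single (⟨1, by omega⟩ : Fin d) (1 : ℝ)) (by simp) (by simp)
      (by simp [EuclideanSpace.inner_single_left])
    have hP : IsPartition A := by
      refine ⟨fun i => (hm i).nullMeasurableSet, fun i j hij => ?_, ?_⟩
      · rw [(hdis i j hij).inter_eq, measure_empty]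
      · rw [hcov, Set.compl_univ, measure_empty]
    refine ⟨A, hP, le_antisymm (hup d k A hP) ?_⟩
    unfold F
    rw [gauss_eq]
    exact hF
  · rintro t ⟨A, hA, rfl⟩
    exact hup d k A hA

end Vale.Agent.Results.P226.Propeller
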